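import Vale.Agent.P158.Tube.Block

/-! The good event of a block: no geodesic runs through the block inside the tube. -/

noncomputable section

namespace Vale.Agent.P158.Tube

open Finset MeasureTheory ProbabilityTheory
open scoped Classical ENNReal

/-- An event depending only on the edges of `S`. -/
def Determined (S : Finset (Sym2 V)) (A : Set (Sym2 V → ℝ)) : Prop :=
  ∀ ω ω' : Sym2 V → ℝ, (∀ e ∈ S, ω e = ω' e) → (ω ∈ A ↔ ω' ∈ A)

/-- Extend a configuration on `S` by zero. -/
def extend (S : Finset (Sym2 V)) (z : S → ℝ) : Sym2 V → ℝ :=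
  fun e => if h : e ∈ S then z ⟨e, h⟩ else 0

theorem measurable_extend (S : Finset (Sym2 V)) : Measurable (extend S) := by
  refine measurable_pi_lambda _ fun e => ?_
  unfold extend
  split_ifs with h <;> fun_prop

theorem Determined.eq_preimage {S : Finset (Sym2 V)} {A : Set (Sym2 V → ℝ)}
    (h : Determined S A) :
    A = (fun (ω : Sym2 V → ℝ) (i : S) => ω i) ⁻¹' (extend S ⁻¹' A) := by
  ext ω
  exact h ω _ fun e he => by simp [extend, he]

theorem Determined.compl {S : Finset (Sym2 V)} {A : Set (Sym2 V → ℝ)} (h : Determined S A) :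
    Determined S Aᶜ := fun ω ω' e => not_congr (h ω ω' e)

theorem Determined.mono {S T : Finset (Sym2 V)} {A : Set (Sym2 V → ℝ)} (h : Determined S A)
    (hST : S ⊆ T) : Determined T A := fun ω ω' e => h ω ω' fun x hx => e x (hST hx)

theorem Determined.inter {S : Finset (Sym2 V)} {A B : Set (Sym2 V → ℝ)} (hA : Determined S A)
    (hB : Determined S B) : Determined S (A ∩ B) :=
  fun ω ω' e => and_congr (hA ω ω' e) (hB ω ω' e)

variable (G : Measure ℝ) [IsProbabilityMeasure G]

/-- Independent weights of law `G` on all pairs of vertices. -/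
abbrev law : Measure (Sym2 V → ℝ) := Measure.infinitePi fun _ => G

theorem law_inter {S T : Finset (Sym2 V)} (hST : Disjoint S T) {A B : Set (Sym2 V → ℝ)}
    (hA : MeasurableSet A) (hB : MeasurableSet B) (dA : Determined S A) (dB : Determined T B) :
    law G (A ∩ B) = law G A * law G B := by
  have hi : iIndepFun (fun e (ω : Sym2 V → ℝ) => ω e) (law G) :=
    iIndepFun_infinitePi (X := fun _ x => x) fun _ => measurable_id
  have h := (hi.indepFun_finset S T hST fun e => measurable_pi_apply e).measure_inter_preimage_eq_mul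
    (extend S ⁻¹' A) (extend T ⁻¹' B) (measurable_extend S hA) (measurable_extend T hB)
  rw [← dA.eq_preimage, ← dB.eq_preimage] at h
  exact h

theorem law_le_all (S : Finset (Sym2 V)) (a : ℝ) :
    law G {ω | ∀ e ∈ S, ω e ≤ a} = G (Set.Iic a) ^ S.card := by
  have h : {ω : Sym2 V → ℝ | ∀ e ∈ S, ω e ≤ a} = Set.pi ↑S fun _ => Set.Iic a := by
    ext ω; simp
  rw [h, law, Measure.infinitePi_pi _ fun _ _ => measurableSet_Iic, Finset.prod_const]

/-- The four directions. -/
def dir : Fin 4 → V := ![(1, 0), (-1, 0), (0, 1), (0, -1)]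

theorem exists_dir {u v : V} (h : Adj u v) : ∃ i, u + dir i = v := by
  obtain ⟨a, b⟩ := u
  obtain ⟨c, d⟩ := v
  simp only [Adj] at h
  have : (c = a + 1 ∧ d = b) ∨ (c = a - 1 ∧ d = b) ∨ (c = a ∧ d = b + 1) ∨ (c = a ∧ d = b - 1) := by
    have h1 := abs_nonneg (a - c)
    have h2 := abs_nonneg (b - d)
    rcases abs_cases (a - c) with ⟨e1, _⟩ | ⟨e1, _⟩ <;>
      rcases abs_cases (b - d) with ⟨e2, _⟩ | ⟨e2, _⟩ <;> omega
  rcases this with ⟨rfl, rfl⟩ | ⟨rfl, rfl⟩ | ⟨rfl, rfl⟩ | ⟨rfl, rfl⟩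
  · exact ⟨0, by simp [dir]⟩
  · exact ⟨1, by simp [dir]; ring⟩
  · exact ⟨2, by simp [dir]⟩
  · exact ⟨3, by simp [dir]; ring⟩

/-- The walk with given start and directions. -/
def walkOf {m : ℕ} (v : V) (d : Fin m → Fin 4) : ℕ → V
  | 0 => v
  | k + 1 => walkOf v d k + if h : k < m then dir (d ⟨k, h⟩) else 0

theorem exists_walkOf {p : ℕ → V} {m : ℕ} (hp : IsWalk p m) :
    ∃ d : Fin m → Fin 4, ∀ k ≤ m, walkOf (p 0) d k = p k := by
  choose d hd using fun k : Fin m => exists_dir (hp k k.2)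
  refine ⟨d, fun k => ?_⟩
  induction k with
  | zero => intro _; rfl
  | succ k ih =>
    intro hk
    have hk' : k < m := hk
    simp only [walkOf, ih (by omega), dif_pos hk']
    exact hd ⟨k, hk'⟩

/-- A self-avoiding walk of at least `L` steps inside `R` with at least half its weights `≤ a`. -/
def bad (R : Finset (Sym2 V)) (T : Finset V) (L : ℕ) (a : ℝ) : Set (Sym2 V → ℝ) :=
  ⋃ m ∈ Finset.Icc L T.card, ⋃ v ∈ T, ⋃ d : Fin m → Fin 4, ⋃ S ∈ (range m).powerset,
    {ω | (m ≤ 2 * S.card ∧ Set.InjOn (walkOf v d) (Set.Iic m) ∧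
        ∀ k < m, s(walkOf v d k, walkOf v d (k + 1)) ∈ R) ∧
      ∀ k ∈ S, ω s(walkOf v d k, walkOf v d (k + 1)) ≤ a}

theorem measurableSet_bad (R : Finset (Sym2 V)) (T : Finset V) (L : ℕ) (a : ℝ) :
    MeasurableSet (bad R T L a) := by
  refine Finset.measurableSet_biUnion _ fun m _ => Finset.measurableSet_biUnion _ fun v _ =>
    MeasurableSet.iUnion fun d => Finset.measurableSet_biUnion _ fun S _ => ?_
  rw [Set.setOf_and]
  refine (MeasurableSet.const _).inter ?_
  have h : {ω : Sym2 V → ℝ | ∀ k ∈ S, ω s(walkOf v d k, walkOf v d (k + 1)) ≤ a} =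
      ⋂ k ∈ S, {ω | ω s(walkOf v d k, walkOf v d (k + 1)) ≤ a} := by ext; simp
  rw [h]
  exact Finset.measurableSet_biInter _ fun k _ =>
    measurableSet_le (measurable_pi_apply _) measurable_const

theorem determined_bad (R : Finset (Sym2 V)) (T : Finset V) (L : ℕ) (a : ℝ) :
    Determined R (bad R T L a) := by
  intro ω ω' h
  simp only [bad, Set.mem_iUnion, Set.mem_setOf_eq]
  refine exists_congr fun m => exists_congr fun _ => exists_congr fun v => exists_congr fun _ =>
    exists_congr fun d => exists_congr fun S => exists_congr fun hS => ?_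
  refine and_congr_right fun hc => forall₂_congr fun k hk => ?_
  rw [h _ (hc.2.2 k (Finset.mem_range.1 (Finset.mem_powerset.1 hS hk)))]

theorem injOn_edge {p : ℕ → V} {m : ℕ} (hp : Set.InjOn p (Set.Iic m)) :
    Set.InjOn (fun k => s(p k, p (k + 1))) (Set.Iio m) := by
  intro k hk l hl h
  simp only [Set.mem_Iio] at hk hl
  have f : ∀ i ≤ m, i ∈ Set.Iic m := fun i hi => hi
  rcases Sym2.eq_iff.1 h with ⟨h1, -⟩ | ⟨h1, h2⟩
  · exact hp (f k hk.le) (f l hl.le) h1
  · have a := hp (f k hk.le) (f (l + 1) hl) h1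
    have b := hp (f (k + 1) hk) (f l hl.le) h2
    omega

theorem law_bad_le (R : Finset (Sym2 V)) (T : Finset V) (L : ℕ) (a : ℝ)
    (hq : G (Set.Iic a) ≤ (1 / 16) ^ 2) :
    law G (bad R T L a) ≤ (T.card + 1 : ℕ) * T.card * (1 / 2) ^ L := by
  have hS : ∀ (m : ℕ) (v : V) (d : Fin m → Fin 4), ∀ S ∈ (range m).powerset,
      law G {ω | (m ≤ 2 * S.card ∧ Set.InjOn (walkOf v d) (Set.Iic m) ∧
          ∀ k < m, s(walkOf v d k, walkOf v d (k + 1)) ∈ R) ∧
        ∀ k ∈ S, ω s(walkOf v d k, walkOf v d (k + 1)) ≤ a} ≤ (1 / 16) ^ m := by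
    intro m v d S hS
    by_cases hc : m ≤ 2 * S.card ∧ Set.InjOn (walkOf v d) (Set.Iic m) ∧
        ∀ k < m, s(walkOf v d k, walkOf v d (k + 1)) ∈ R
    · rw [show {ω : Sym2 V → ℝ | (m ≤ 2 * S.card ∧ Set.InjOn (walkOf v d) (Set.Iic m) ∧
          ∀ k < m, s(walkOf v d k, walkOf v d (k + 1)) ∈ R) ∧
        ∀ k ∈ S, ω s(walkOf v d k, walkOf v d (k + 1)) ≤ a} =
          {ω | ∀ k ∈ S, ω s(walkOf v d k, walkOf v d (k + 1)) ≤ a} from
        Set.ext fun ω => and_iff_right hc]
      have hi : Set.InjOn (fun k => s(walkOf v d k, walkOf v d (k + 1))) S :=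
        (injOn_edge hc.2.1).mono fun k hk =>
          Finset.mem_range.1 (Finset.mem_powerset.1 hS hk)
      calc law G {ω | ∀ k ∈ S, ω s(walkOf v d k, walkOf v d (k + 1)) ≤ a}
          = law G {ω | ∀ e ∈ S.image fun k => s(walkOf v d k, walkOf v d (k + 1)), ω e ≤ a} := by
            simp
        _ = G (Set.Iic a) ^ S.card := by rw [law_le_all, Finset.card_image_of_injOn hi]
        _ ≤ ((1 / 16) ^ 2) ^ S.card := pow_le_pow_left' hq _
        _ = (1 / 16) ^ (2 * S.card) := (pow_mul _ _ _).symm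
        _ ≤ (1 / 16) ^ m := pow_le_pow_right_of_le_one' (by norm_num) hc.1
    · simp only [hc, false_and]
      simp
  calc law G (bad R T L a)
      ≤ ∑ m ∈ Finset.Icc L T.card, ∑ v ∈ T, ∑ d : Fin m → Fin 4, ∑ S ∈ (range m).powerset,
          (1 / 16 : ℝ≥0∞) ^ m := by
        refine (measure_biUnion_finset_le _ _).trans (Finset.sum_le_sum fun m _ => ?_)
        refine (measure_biUnion_finset_le _ _).trans (Finset.sum_le_sum fun v _ => ?_)
        refine (measure_iUnion_fintype_le _ _).trans (Finset.sum_le_sum fun d _ => ?_)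
        exact (measure_biUnion_finset_le _ _).trans (Finset.sum_le_sum (hS m v d))
    _ ≤ ∑ m ∈ Finset.Icc L T.card, (T.card : ℝ≥0∞) * (1 / 2) ^ L := by
        refine Finset.sum_le_sum fun m hm => ?_
        simp only [Finset.sum_const, Finset.card_univ, Fintype.card_fun, Fintype.card_fin,
          Finset.card_powerset, Finset.card_range, nsmul_eq_mul]
        push_cast
        gcongr
        calc (4 : ℝ≥0∞) ^ m * (2 ^ m * (1 / 16) ^ m) = (4 * (2 * (1 / 16))) ^ m := by
              rw [mul_pow, mul_pow]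
          _ = (1 / 2) ^ m := by
              congr 1
              rw [← ENNReal.toReal_eq_toReal_iff' (by finiteness) (by finiteness)]
              norm_num [ENNReal.toReal_mul, ENNReal.toReal_div]
          _ ≤ (1 / 2) ^ L := pow_le_pow_right_of_le_one' (by norm_num) (Finset.mem_Icc.1 hm).1
    _ ≤ (T.card + 1 : ℕ) * T.card * (1 / 2) ^ L := by
        rw [Finset.sum_const, nsmul_eq_mul, mul_assoc]
        gcongr
        simp

variable (g : ℤ → ℤ) (x₀ : ℤ) (L w : ℕ) (a b : ℝ)

/-- The good event. -/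
def good : Set (Sym2 V → ℝ) :=
  (bad (inner g x₀ L w) (tube g x₀ L w) L a)ᶜ ∩ {ω | ∀ e ∈ detour g x₀ L w, ω e ≤ b}

/-- The edges on which the good event depends. -/
def support : Finset (Sym2 V) := inner g x₀ L w ∪ detour g x₀ L w

theorem measurableSet_le_all (S : Finset (Sym2 V)) :
    MeasurableSet {ω : Sym2 V → ℝ | ∀ e ∈ S, ω e ≤ b} := by
  have h : {ω : Sym2 V → ℝ | ∀ e ∈ S, ω e ≤ b} = ⋂ e ∈ S, {ω | ω e ≤ b} := by ext; simp
  rw [h]
  exact Finset.measurableSet_biInter _ fun k _ =>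
    measurableSet_le (measurable_pi_apply _) measurable_const

theorem measurableSet_good : MeasurableSet (good g x₀ L w a b) :=
  (measurableSet_bad _ _ _ _).compl.inter (measurableSet_le_all b _)

theorem determined_le_all (S : Finset (Sym2 V)) :
    Determined S {ω | ∀ e ∈ S, ω e ≤ b} :=
  fun ω ω' h => forall₂_congr fun e he => by rw [h e he]

theorem determined_good : Determined (support g x₀ L w) (good g x₀ L w a b) :=
  ((determined_bad _ _ _ _).compl.mono Finset.subset_union_left).inter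
    ((determined_le_all b _).mono Finset.subset_union_right)

variable {g x₀ L w a b}

theorem size_bound {L : ℕ} (hL : 30 ≤ L) :
    2 * (((L + 1) * (2 * L + 1) + 1) * ((L + 1) * (2 * L + 1))) ≤ 2 ^ L := by
  induction L, hL using Nat.le_induction with
  | base => norm_num
  | succ L hL ih =>
    rw [pow_succ]
    have h : ((L + 1 + 1) * (2 * (L + 1) + 1) + 1) * ((L + 1 + 1) * (2 * (L + 1) + 1)) ≤
        2 * (((L + 1) * (2 * L + 1) + 1) * ((L + 1) * (2 * L + 1))) := by
      obtain ⟨i, rfl⟩ := Nat.exists_eq_add_of_le hL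
      ring_nf
      nlinarith
    omega

theorem law_good_ge (hwL : w ≤ L) (hL : 30 ≤ L) (hq : G (Set.Iic a) ≤ (1 / 16) ^ 2) :
    1 / 2 * G (Set.Iic b) ^ (2 * (2 * w + 1) + 3 * L) ≤ law G (good g x₀ L w a b) := by
  rw [good, law_inter G disjoint_inner_detour (measurableSet_bad _ _ _ _).compl
    (measurableSet_le_all b _) (determined_bad _ _ _ _).compl (determined_le_all b _), law_le_all]
  refine mul_le_mul' ?_ (pow_le_pow_right_of_le_one' prob_le_one card_detour_le)
  rw [measure_compl (measurableSet_bad _ _ _ _) (measure_ne_top _ _), measure_univ,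
    one_div, ← ENNReal.one_sub_inv_two]
  refine tsub_le_tsub_left ((law_bad_le G _ _ _ _ hq).trans ?_) _
  set c := (tube g x₀ L w).card
  have hc : c ≤ (L + 1) * (2 * L + 1) :=
    card_tube_le.trans (by gcongr)
  have h2 : 2 * ((c + 1) * c) ≤ 2 ^ L := le_trans (by gcongr) (size_bound hL)
  have h3 : (2 : ℝ≥0∞) * (((c + 1 : ℕ) : ℝ≥0∞) * c) ≤ 2 ^ L := by exact_mod_cast h2
  rw [one_div, ← ENNReal.inv_pow, ← div_eq_mul_inv, ENNReal.div_le_iff (by positivity) (by finiteness)]
  calc (((c + 1 : ℕ) : ℝ≥0∞) * c) = 2⁻¹ * (2 * (((c + 1 : ℕ) : ℝ≥0∞) * c)) := by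
        rw [← mul_assoc, ENNReal.inv_mul_cancel (by norm_num) (by norm_num), one_mul]
    _ ≤ _ := by gcongr

theorem no_geo {σ : ℤ} (hg : Step g σ) {r δ η : ℝ} (hr : 0 ≤ r) (hδ : 0 < δ) (hη : 0 < η)
    (hw : 1 ≤ w) (hK : (r + η) * (12 * w) < (δ - η) * L)
    {ω : Sym2 V → ℝ} (hgood : ω ∈ good g x₀ L w (r + 2 * δ) (r + η)) (hω : ∀ e, r ≤ ω e)
    {p : ℕ → V} {m : ℕ} (hp : IsWalk p m) (hinj : Set.InjOn p (Set.Iic m)) (hgeo : Geo ω p m)
    (h0 : (p 0).1 = x₀) (hm : (p m).1 = x₀ + L)
    (hlo : ∀ k ≤ m, 0 < k → x₀ < (p k).1) (hhi : ∀ k < m, (p k).1 < x₀ + L)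
    (htube : ∀ k ≤ m, |(p k).2 - g (p k).1| ≤ w) : False := by
  have hT : ∀ k ≤ m, p k ∈ tube g x₀ L w := fun k hk => by
    refine mem_tube.2 ⟨?_, ?_, htube k hk⟩
    · rcases Nat.eq_zero_or_pos k with rfl | h
      · exact h0.ge
      · exact (hlo k hk h).le
    · rcases hk.eq_or_lt with rfl | h
      · exact hm.le
      · exact (hhi k h).le
  have hR : ∀ k < m, s(p k, p (k + 1)) ∈ inner g x₀ L w := fun k hk => by
    refine Finset.mem_filter.2 ⟨Finset.mem_sym2_iff.2 fun v hv => ?_, fun h => ?_, fun h => ?_⟩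
    · rcases Sym2.mem_iff.1 hv with rfl | rfl
      · exact hT k hk.le
      · exact hT (k + 1) hk
    · exact (hlo (k + 1) hk k.succ_pos).ne' (h _ (Sym2.mem_mk_right _ _))
    · exact (hhi k hk).ne (h _ (Sym2.mem_mk_left _ _))
  have hmT : m ≤ (tube g x₀ L w).card := by
    have h := Finset.card_le_card_of_injOn p
      (fun k hk => hT k (Finset.mem_Iic.1 hk)) (s := Finset.Iic m) (by simpa using hinj)
    simp at h
    omega
  have hl1 := l1_le hp
  rw [h0, hm, add_sub_cancel_left, Nat.abs_cast] at hl1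
  set D := L + ((p m).2 - (p 0).2).natAbs with hD
  have hDm : D ≤ m := by
    zify [hD]
    linarith
  have hLm : L ≤ m := by omega
  set S := (range m).filter fun k => ω s(p k, p (k + 1)) ≤ r + 2 * δ with hS
  have hlow : 2 * S.card < m := by
    by_contra hcon
    push Not at hcon
    obtain ⟨d, hd⟩ := exists_walkOf hp
    refine hgood.1 ?_
    simp only [bad, Set.mem_iUnion, Set.mem_setOf_eq]
    refine ⟨m, Finset.mem_Icc.2 ⟨hLm, hmT⟩, p 0, hT 0 (Nat.zero_le _), d, S,
      Finset.mem_powerset.2 (Finset.filter_subset _ _), ⟨hcon, ?_, fun k hk => ?_⟩, fun k hk => ?_⟩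
    · intro i hi j hj h
      rw [hd i hi, hd j hj] at h
      exact hinj hi hj h
    · rw [hd k hk.le, hd (k + 1) hk]; exact hR k hk
    · obtain ⟨hk1, hk2⟩ := Finset.mem_filter.1 hk
      rw [Finset.mem_range] at hk1
      rwa [hd k hk1.le, hd (k + 1) hk1]
  have hcost : (r + δ) * m ≤ cost ω p m := by
    have h : ∀ k ∈ range m,
        r + (if k ∈ S then 0 else 2 * δ) ≤ ω s(p k, p (k + 1)) := fun k hk => by
      split_ifs with h
      · simpa using hω _
      · exact le_of_lt (not_le.1 fun h' => h (Finset.mem_filter.2 ⟨hk, h'⟩))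
    refine le_trans ?_ (Finset.sum_le_sum h)
    rw [Finset.sum_add_distrib, Finset.sum_ite, Finset.sum_const_zero, zero_add, Finset.sum_const,
      Finset.sum_const, Finset.card_range, nsmul_eq_mul, nsmul_eq_mul]
    have hc : ((range m).filter fun k => k ∉ S).card + S.card = m := by
      have := Finset.card_filter_add_card_filter_not (s := range m) (fun k => k ∈ S)
      have e : (range m).filter (fun k => k ∈ S) = S := by
        ext k; simp only [Finset.mem_filter, and_iff_right_iff_imp]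
        exact fun hk => (Finset.filter_subset _ _) hk
      rw [e, Finset.card_range] at this
      omega
    have hc' : (((range m).filter fun k => k ∉ S).card : ℝ) + S.card = m := by exact_mod_cast hc
    have hl' : 2 * (S.card : ℝ) ≤ m := by exact_mod_cast hlow.le
    nlinarith
  obtain ⟨q, l, hl, hq0, hql, hqw, hqS⟩ := reach_detour hg (htube 0 (Nat.zero_le _) |> fun h => by
    rwa [h0] at h) (htube m le_rfl |> fun h => by rwa [hm] at h)
  have hq : cost ω q l ≤ (r + η) * (D + 12 * w : ℕ) := by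
    calc cost ω q l ≤ ∑ _k ∈ range l, (r + η) :=
          Finset.sum_le_sum fun k hk => hgood.2 _ (hqS k (Finset.mem_range.1 hk))
      _ ≤ _ := by
          rw [Finset.sum_const, Finset.card_range, nsmul_eq_mul, mul_comm]
          gcongr
          omega
  have hmain := hgeo q l (hq0.trans (Prod.ext h0.symm rfl)) (hql.trans (Prod.ext hm.symm rfl)) hqw
  push_cast at hq
  have hDm' : (D : ℝ) ≤ m := by exact_mod_cast hDm
  have hLm' : (L : ℝ) ≤ m := by exact_mod_cast hLm
  have hw' : (1 : ℝ) ≤ w := by exact_mod_cast hw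
  have hpos : (0 : ℝ) < r + η := by linarith
  have : 0 < δ - η := by
    by_contra h
    nlinarith [mul_nonpos_of_nonpos_of_nonneg (not_lt.1 h) (Nat.cast_nonneg (α := ℝ) L)]
  nlinarith [mul_le_mul_of_nonneg_left hLm' this.le]

end Vale.Agent.P158.Tube
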