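import Vale.Agent.P158.Tube.Scale

/-! Geodesic rays leave every logarithmic tube around every line. -/

noncomputable section

namespace Vale.Agent.P158.Tube

open Finset MeasureTheory ProbabilityTheory Filter Topology Real
open scoped Classical ENNReal

/-- A geodesic ray. -/
def IsRay (ω : Sym2 V → ℝ) (γ : ℕ → V) : Prop :=
  Function.Injective γ ∧ (∀ k, Adj (γ k) (γ (k + 1))) ∧
    ∀ i m, Geo ω (fun k => γ (i + k)) m

/-- A bigeodesic. -/
def IsBigeodesic (ω : Sym2 V → ℝ) (γ : ℤ → V) : Prop :=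
  Function.Injective γ ∧ (∀ k, Adj (γ k) (γ (k + 1))) ∧
    ∀ (i : ℤ) (m : ℕ), Geo ω (fun k => γ (i + k)) m

theorem exists_levels (G : Measure ℝ) [IsProbabilityMeasure G] [NullSingletonClass G]
    (h0 : G (Set.Iio 0) = 0) :
    ∃ r δ : ℝ, 0 ≤ r ∧ 0 < δ ∧ G (Set.Iio r) = 0 ∧ G (Set.Iic (r + 2 * δ)) ≤ (1 / 16) ^ 2 ∧
      0 < G (Set.Iic (r + δ / 2)) ∧ G (Set.Iic (r + δ / 2)) < 1 := by
  set s : Set ℝ := {x | G (Set.Iio x) = 0} with hs
  have hbdd : BddAbove s := by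
    by_contra hb
    rw [not_bddAbove_iff] at hb
    have h : (Set.univ : Set ℝ) = ⋃ n : ℕ, Set.Iio (n : ℝ) := by
      ext x; simpa using exists_nat_gt x
    have hz : ∀ n : ℕ, G (Set.Iio (n : ℝ)) = 0 := fun n => by
      obtain ⟨y, hy, hny⟩ := hb n
      exact measure_mono_null (Set.Iio_subset_Iio hny.le) hy
    have : G Set.univ = 0 := by rw [h]; exact measure_iUnion_null hz
    simp at this
  set r := sSup s
  have hr0 : 0 ≤ r := le_csSup hbdd h0
  have hr : G (Set.Iio r) = 0 := by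
    have h : Set.Iio r ⊆ ⋃ n : ℕ, Set.Iio (r - 1 / ((n : ℝ) + 1)) := fun x hx => by
      obtain ⟨n, hn⟩ := exists_nat_one_div_lt (K := ℝ) (ε := r - x) (by simp only [Set.mem_Iio] at hx; linarith)
      exact Set.mem_iUnion.2 ⟨n, by simp only [Set.mem_Iio] at *; linarith⟩
    refine measure_mono_null h (measure_iUnion_null fun n => ?_)
    obtain ⟨y, hy, hny⟩ := exists_lt_of_lt_csSup (s := s) ⟨0, h0⟩
      (show r - 1 / ((n : ℝ) + 1) < sSup s from sub_lt_self _ (by positivity))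
    exact measure_mono_null (Set.Iio_subset_Iio hny.le) hy
  have hpos : ∀ ε > (0 : ℝ), 0 < G (Set.Iic (r + ε)) := fun ε hε => by
    refine pos_iff_ne_zero.2 fun hz => ?_
    have : r + ε ∈ s := measure_mono_null Set.Iio_subset_Iic_self hz
    linarith [le_csSup hbdd this]
  have hzero : G (Set.Iic r) = 0 := by
    rw [← Set.Iio_union_right, measure_union_null hr (measure_singleton r)]
  have hlim : Tendsto (fun n : ℕ => G (Set.Iic (r + 1 / ((n : ℝ) + 1)))) atTop (𝓝 0) := by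
    have h := tendsto_measure_iInter_atTop (μ := G)
      (s := fun n : ℕ => Set.Iic (r + 1 / ((n : ℝ) + 1)))
      (fun n => measurableSet_Iic.nullMeasurableSet)
      (fun m n hmn => Set.Iic_subset_Iic.2 (by gcongr)) ⟨0, measure_ne_top _ _⟩
    have e : (⋂ n : ℕ, Set.Iic (r + 1 / ((n : ℝ) + 1))) = Set.Iic r := by
      ext x
      simp only [Set.mem_iInter, Set.mem_Iic]
      refine ⟨fun hx => le_of_forall_pos_le_add fun ε hε => ?_, fun hx n => ?_⟩
      · obtain ⟨n, hn⟩ := exists_nat_one_div_lt hε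
        linarith [hx n]
      · have : (0 : ℝ) ≤ 1 / ((n : ℝ) + 1) := by positivity
        linarith
    rwa [e, hzero] at h
  obtain ⟨n, hn⟩ := (hlim.eventually (ge_mem_nhds (show (0 : ℝ≥0∞) < (1 / 16) ^ 2 by
    refine ENNReal.pow_pos ?_ 2
    norm_num))).exists
  refine ⟨r, 1 / ((n : ℝ) + 1) / 2, hr0, by positivity, hr, ?_, hpos _ (by positivity), ?_⟩
  · rwa [mul_div_cancel₀ _ two_ne_zero]
  · refine lt_of_le_of_lt ((measure_mono (Set.Iic_subset_Iic.2 ?_)).trans hn) ?_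
    · have : (0 : ℝ) ≤ 1 / ((n : ℝ) + 1) := by positivity
      linarith
    · calc ((1 / 16 : ℝ≥0∞)) ^ 2 ≤ 1 / 16 := pow_le_of_le_one (by simp) (by norm_num) two_ne_zero
        _ < 1 := by norm_num

/-- A sequence with unit steps crosses an interval. -/
theorem exists_crossing {f : ℕ → ℤ} (hf : ∀ k, |f (k + 1) - f k| ≤ 1) {i j : ℕ} (hij : i ≤ j)
    {lo hi : ℤ} (hlh : lo < hi) (hi' : f i ≤ lo) (hj : hi ≤ f j) :
    ∃ a b, i ≤ a ∧ a ≤ b ∧ b ≤ j ∧ f a = lo ∧ f b = hi ∧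
      (∀ k, a < k → k ≤ b → lo < f k) ∧ (∀ k, a ≤ k → k < b → f k < hi) := by
  have hex : ∃ k, i ≤ k ∧ hi ≤ f k := ⟨j, hij, hj⟩
  have hspec := Nat.find_spec hex
  have hmin : ∀ k < Nat.find hex, ¬(i ≤ k ∧ hi ≤ f k) := fun k => Nat.find_min hex
  have hbj : Nat.find hex ≤ j := Nat.find_le ⟨hij, hj⟩
  generalize Nat.find hex = b at hspec hmin hbj
  obtain ⟨hib, hfb⟩ := hspec
  have hbelow : ∀ k, i ≤ k → k < b → f k < hi := fun k h1 h2 =>
    not_le.1 fun h => hmin k h2 ⟨h1, h⟩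
  have hspec' := Nat.findGreatest_spec (P := fun k => i ≤ k ∧ f k ≤ lo) hib ⟨le_rfl, hi'⟩
  have hab : Nat.findGreatest (fun k => i ≤ k ∧ f k ≤ lo) b ≤ b := Nat.findGreatest_le b
  have hmax : ∀ k, Nat.findGreatest (fun k => i ≤ k ∧ f k ≤ lo) b < k → k ≤ b →
      ¬(i ≤ k ∧ f k ≤ lo) := fun k => Nat.findGreatest_is_greatest
  generalize Nat.findGreatest (fun k => i ≤ k ∧ f k ≤ lo) b = a at hspec' hab hmax
  obtain ⟨hia, hfa⟩ := hspec'
  have habove : ∀ k, a < k → k ≤ b → lo < f k := fun k h1 h2 =>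
    not_le.1 fun h => hmax k h1 h2 ⟨hia.trans h1.le, h⟩
  have hab' : a < b := lt_of_le_of_ne hab fun h => by rw [h] at hfa; omega
  refine ⟨a, b, hia, hab, hbj, ?_, ?_, habove, fun k h1 h2 => hbelow k (hia.trans h1) h2⟩
  · have h1 := habove (a + 1) (by omega) hab'
    have h2 := (abs_le.1 (hf a)).2
    omega
  · have h1 := hbelow (b - 1) (by omega) (by omega)
    have h2 := (abs_le.1 (hf (b - 1))).2
    rw [show b - 1 + 1 = b by omega] at h2
    omega

theorem adj_fst {u v : V} (h : Adj u v) : |v.1 - u.1| ≤ 1 := by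
  unfold Adj at h
  rw [abs_sub_comm]
  linarith [abs_nonneg (u.2 - v.2)]

theorem ray_tubes (G : Measure ℝ) [IsProbabilityMeasure G] [NullSingletonClass G]
    (h0 : G (Set.Iio 0) = 0) :
    ∃ c : ℝ, 0 < c ∧ c ≤ 1 / 2 ∧ ∀ᵐ ω ∂law G, ∀ γ, IsRay ω γ → ∀ s t : ℝ, |s| ≤ 1 →
      ∃ᶠ i in atTop, c * log (2 + |((γ i).1 : ℝ)| + |((γ i).2 : ℝ)|) <
        |((γ i).2 : ℝ) - s * (γ i).1 - t| := by
  obtain ⟨r, δ, hr, hδ, hr0, hq, hp, hp1⟩ := exists_levels G h0
  set K : ℕ := max 30 (⌈(r + δ / 2) * 24 / δ⌉₊ + 1)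
  have hK : 30 ≤ K := le_max_left _ _
  have hK' : (r + δ / 2) * 24 / δ < K :=
    lt_of_le_of_lt (Nat.le_ceil _) (by
      have : ⌈(r + δ / 2) * 24 / δ⌉₊ + 1 ≤ K := le_max_right _ _
      exact_mod_cast this)
  obtain ⟨γ₀, hγ₀, hae⟩ := eventually_blocks G hq hp hp1 hK
  set c := min (γ₀ / 4) (1 / 2) with hcdef
  have hc : 0 < c := lt_min (by positivity) (by norm_num)
  have hc2 : c ≤ 1 / 2 := min_le_right _ _
  have hc4 : c ≤ γ₀ / 4 := min_le_left _ _
  refine ⟨c, hc, hc2, ?_⟩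
  have hge : ∀ᵐ ω ∂law G, ∀ e, r ≤ ω e := by
    refine ae_all_iff.2 fun e => ?_
    have hm : ∀ᵐ x ∂G, r ≤ x := by
      rw [ae_iff]
      simp only [not_le]
      exact hr0
    exact (measurePreserving_eval_infinitePi (fun _ : Sym2 V => G) e).quasiMeasurePreserving.ae hm
  filter_upwards [hae, hge] with ω hω hge γ ⟨hinj, hadj, hgeo⟩ s t hs
  by_contra hcon
  rw [not_frequently, eventually_atTop] at hcon
  obtain ⟨i₀, hi₀⟩ := hcon
  simp only [not_lt] at hi₀
  have hlog : Tendsto (fun n : ℕ => log n) atTop atTop :=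
    tendsto_log_atTop.comp tendsto_natCast_atTop_atTop
  obtain ⟨n, hn, hnγ, hn12, hni, hnt⟩ :=
    (hω.and ((hlog.eventually_ge_atTop (12 / γ₀)).and ((eventually_ge_atTop 12).and
      ((eventually_ge_atTop ((γ i₀).1.natAbs + 1)).and
        (tendsto_natCast_atTop_atTop.eventually (eventually_ge_atTop (|t| + 2))))))).exists
  have hn0 : 0 < n := by omega
  have hnR : (12 : ℝ) ≤ n := by exact_mod_cast hn12
  set a := ⌊s * (n : ℝ)⌋ with hadef
  set b := ⌊t⌋ with hbdef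
  have ha1 := Int.floor_le (s * (n : ℝ))
  have ha2 := Int.lt_floor_add_one (s * (n : ℝ))
  have hb1 := Int.floor_le t
  have hb2 := Int.lt_floor_add_one t
  rw [← hadef] at ha1 ha2
  rw [← hbdef] at hb1 hb2
  obtain ⟨hs1, hs2⟩ := abs_le.1 hs
  have ha : |a| ≤ (n : ℤ) := by
    rw [abs_le]
    constructor
    · have : ((-(n : ℤ) : ℤ) : ℝ) < (a : ℝ) + 1 := by push_cast; nlinarith
      exact_mod_cast Int.lt_add_one_iff.1 (by exact_mod_cast this)
    · have : (a : ℝ) ≤ ((n : ℤ) : ℝ) := by push_cast; nlinarith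
      exact_mod_cast this
  have hb : |b| ≤ (n : ℤ) := by
    rw [abs_le]
    constructor
    · have : ((-(n : ℤ) : ℤ) : ℝ) < (b : ℝ) + 1 := by push_cast; linarith [neg_abs_le t]
      exact_mod_cast Int.lt_add_one_iff.1 (by exact_mod_cast this)
    · have : (b : ℝ) ≤ ((n : ℤ) : ℝ) := by push_cast; linarith [le_abs_self t]
      exact_mod_cast this
  set w := wid γ₀ n with hwdef
  have hwlt : γ₀ * log n < (w : ℝ) + 1 := Nat.lt_floor_add_one _
  have hγlog : 12 ≤ γ₀ * log n := by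
    rw [div_le_iff₀ hγ₀] at hnγ; linarith
  have hw1 : 1 ≤ w := Nat.le_floor (by push_cast; linarith)
  have height : ∀ i ≥ i₀, |(γ i).1| ≤ 2 * n → |((γ i).2 : ℝ)| ≤ 9 * n := fun i hi hx => by
    have hx' : |((γ i).1 : ℝ)| ≤ 2 * n := by exact_mod_cast hx
    have h1 := hi₀ i hi
    have h2 : log (2 + |((γ i).1 : ℝ)| + |((γ i).2 : ℝ)|) ≤
        2 + |((γ i).1 : ℝ)| + |((γ i).2 : ℝ)| := log_le_self (by positivity)
    have h3 : 0 ≤ log (2 + |((γ i).1 : ℝ)| + |((γ i).2 : ℝ)|) := log_nonneg (by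
      linarith [abs_nonneg ((γ i).1 : ℝ), abs_nonneg ((γ i).2 : ℝ)])
    have h4 : c * log (2 + |((γ i).1 : ℝ)| + |((γ i).2 : ℝ)|) ≤
        1 / 2 * (2 + |((γ i).1 : ℝ)| + |((γ i).2 : ℝ)|) :=
      (mul_le_mul_of_nonneg_right hc2 h3).trans (mul_le_mul_of_nonneg_left h2 (by norm_num))
    have h5 : |((γ i).2 : ℝ)| ≤
        |((γ i).2 : ℝ) - s * (γ i).1 - t| + |s * (γ i).1| + |t| := by
      calc |((γ i).2 : ℝ)| = |(((γ i).2 : ℝ) - s * (γ i).1 - t) + s * (γ i).1 + t| := by ring_nf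
        _ ≤ _ := abs_add_three _ _ _
    rw [abs_mul] at h5
    have h6 : |s| * |((γ i).1 : ℝ)| ≤ 1 * (2 * n) := mul_le_mul hs hx' (abs_nonneg _) one_pos.le
    linarith
  have close : ∀ i ≥ i₀, |(γ i).1| ≤ 2 * n →
      |(γ i).2 - gline n a b (γ i).1| ≤ (w : ℤ) := fun i hi hx => by
    have hx' : |((γ i).1 : ℝ)| ≤ 2 * n := by exact_mod_cast hx
    have hy := height i hi hx
    have hl : log (2 + |((γ i).1 : ℝ)| + |((γ i).2 : ℝ)|) ≤ 2 * log n := by
      rw [show (2 : ℝ) * log n = log ((n : ℝ) ^ 2) by rw [log_pow]; norm_num]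
      refine log_le_log (by positivity) ?_
      nlinarith
    have h1 : |((γ i).2 : ℝ) - s * (γ i).1 - t| ≤ γ₀ / 2 * log n := by
      refine (hi₀ i hi).trans ?_
      have h3 : 0 ≤ log n := log_nonneg (by linarith)
      calc c * log (2 + |((γ i).1 : ℝ)| + |((γ i).2 : ℝ)|) ≤ c * (2 * log n) :=
            mul_le_mul_of_nonneg_left hl hc.le
        _ ≤ γ₀ / 4 * (2 * log n) := mul_le_mul_of_nonneg_right hc4 (by linarith)
        _ = _ := by ring
    have hnpos : (0 : ℤ) < n := by exact_mod_cast hn0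
    have hq1 : ((a * (γ i).1 / (n : ℤ) : ℤ) : ℝ) * n ≤ a * (γ i).1 := by
      exact_mod_cast Int.ediv_mul_le _ hnpos.ne'
    have hq2 : (a : ℝ) * (γ i).1 < (((a * (γ i).1 / (n : ℤ) : ℤ) : ℝ) + 1) * n := by
      exact_mod_cast Int.lt_ediv_add_one_mul_self _ hnpos
    set q := a * (γ i).1 / (n : ℤ) with hqdef
    have h2 : |(q : ℝ) - s * (γ i).1| ≤ 3 := by
      have hax : |((a : ℝ) - s * n) * (γ i).1| ≤ 2 * n := by
        rw [abs_mul]
        have : |(a : ℝ) - s * n| ≤ 1 := abs_le.2 ⟨by linarith, by linarith⟩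
        calc _ ≤ 1 * |((γ i).1 : ℝ)| := mul_le_mul_of_nonneg_right this (abs_nonneg _)
          _ ≤ _ := by linarith
      rw [abs_le] at hax ⊢
      constructor <;> nlinarith
    have h3 : |((γ i).2 : ℝ) - ((b + q : ℤ) : ℝ)| ≤ γ₀ / 2 * log n + 4 := by
      push_cast
      rw [abs_le] at h1 h2 ⊢
      constructor <;> linarith
    have h4 : ((|(γ i).2 - gline n a b (γ i).1| : ℤ) : ℝ) ≤ ((w : ℤ) : ℝ) := by
      simp only [gline, ← hqdef]
      push_cast at h3 ⊢
      linarith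
    exact_mod_cast h4
  have hfar : ∃ j, i₀ ≤ j ∧ (2 * (n : ℤ)) < |(γ j).1| := by
    by_contra hno
    push Not at hno
    have hsub : γ '' Set.Ici i₀ ⊆
        ↑(Finset.Icc (-(2 * n : ℤ)) (2 * n) ×ˢ Finset.Icc (-(9 * n : ℤ)) (9 * n)) := by
      rintro _ ⟨i, hi, rfl⟩
      have hy := height i hi (hno i hi)
      simp only [Finset.coe_product, Finset.coe_Icc, Set.mem_prod, Set.mem_Icc, ← abs_le]
      exact ⟨hno i hi, by exact_mod_cast hy⟩
    exact (Set.Ici_infinite i₀).image hinj.injOn ((Finset.finite_toSet _).subset hsub)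
  obtain ⟨j, hij, hj⟩ := hfar
  have hstep : ∀ k, |(γ (k + 1)).1 - (γ k).1| ≤ 1 := fun k => adj_fst (hadj k)
  set L := K * w with hL
  have hL30 : 30 ≤ L := le_trans hK (Nat.le_mul_of_pos_right _ hw1)
  have hKw : (r + δ / 2) * (12 * (w : ℝ)) < (δ - δ / 2) * (L : ℕ) := by
    have hw' : (1 : ℝ) ≤ w := by exact_mod_cast hw1
    rw [div_lt_iff₀ hδ] at hK'
    rw [hL]; push_cast
    nlinarith
  obtain ⟨σ, hσ⟩ := step_gline hn0 ha b
  have hi0x : -(n : ℤ) < (γ i₀).1 ∧ (γ i₀).1 < n := by omega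
  rcases lt_abs.1 hj with hj' | hj'
  · obtain ⟨k, hk, hgood⟩ := hn a b ha hb true
    have hrange := blk_range (side := true) hk
    simp only [base, if_true, ← hwdef, ← hL] at hrange
    set x₀ := blk K γ₀ n true k
    obtain ⟨a', b', h1, h2, h3, h4, h5, h6, h7⟩ :=
      exists_crossing (f := fun k => (γ k).1) hstep hij (lo := x₀) (hi := x₀ + L)
        (by omega) (by omega) (by omega)
    refine no_geo hσ hr hδ (by linarith) hw1 hKw hgood hge (p := fun i => γ (a' + i)) (m := b' - a')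
      (fun i _ => hadj (a' + i)) (fun i _ i' _ h => Nat.add_left_cancel (hinj h))
      (hgeo a' _) (by simpa using h4) (by simp only [Nat.add_sub_cancel' h2]; exact h5)
      (fun i hi h => h6 _ (by omega) (by omega)) (fun i hi => h7 _ (by omega) (by omega))
      fun i hi => close _ (by omega) ?_
    rw [abs_le]
    rcases Nat.eq_zero_or_pos i with rfl | hpos
    · simp only [add_zero]; omega
    · rcases hi.eq_or_lt with rfl | hlt
      · rw [show a' + (b' - a') = b' by omega]; omega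
      · have := h6 (a' + i) (by omega) (by omega)
        have := h7 (a' + i) (by omega) (by omega)
        omega
  · obtain ⟨k, hk, hgood⟩ := hn a b ha hb false
    have hrange := blk_range (side := false) hk
    simp only [base, Bool.false_eq_true, if_false, ← hwdef, ← hL] at hrange
    set x₀ := blk K γ₀ n false k
    obtain ⟨a', b', h1, h2, h3, h4, h5, h6, h7⟩ :=
      exists_crossing (f := fun k => -(γ k).1)
        (fun k => by simpa [neg_add_eq_sub, abs_sub_comm] using hstep k) hij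
        (lo := -(x₀ + L)) (hi := -x₀) (by omega) (by omega) (by omega)
    simp only [neg_inj] at h4 h5 h6 h7
    refine no_geo hσ hr hδ (by linarith) hw1 hKw hgood hge
      (p := rev (fun i => γ (a' + i)) (b' - a')) (m := b' - a')
      (isWalk_rev fun i _ => hadj (a' + i))
      (fun i hi i' hi' h => by
        simp only [Set.mem_Iic] at hi hi'
        have := hinj h
        omega)
      (hgeo a' _).rev (by simp only [rev, Nat.sub_zero, Nat.add_sub_cancel' h2]; exact h5)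
      (by simp only [rev, Nat.sub_self, add_zero]; exact h4)
      (fun i hi h => ?_) (fun i hi => ?_) fun i hi => close _ (by omega) ?_
    · have := h7 (a' + (b' - a' - i)) (by omega) (by omega)
      simp only [rev]; omega
    · have := h6 (a' + (b' - a' - i)) (by omega) (by omega)
      simp only [rev]; omega
    rw [abs_le]
    rcases Nat.eq_zero_or_pos i with rfl | hpos
    · simp only [Nat.sub_zero, show a' + (b' - a') = b' by omega]; omega
    · rcases hi.eq_or_lt with rfl | hlt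
      · simp only [Nat.sub_self, add_zero]; omega
      · have := h6 (a' + (b' - a' - i)) (by omega) (by omega)
        have := h7 (a' + (b' - a' - i)) (by omega) (by omega)
        omega

/-- Exchange the two coordinates. -/
def flip (ω : Sym2 V → ℝ) : Sym2 V → ℝ := fun e => ω (Sym2.map Prod.swap e)

theorem geo_flip {ω : Sym2 V → ℝ} {p : ℕ → V} {m : ℕ} (h : Geo ω p m) :
    Geo (flip ω) (fun k => (p k).swap) m := by
  intro q l h0 hl hw
  have hc : ∀ (f : ℕ → V) n, cost (flip ω) f n = cost ω (fun k => (f k).swap) n := fun f n => rfl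
  rw [hc, hc]
  simp only [Prod.swap_swap]
  exact h (fun k => (q k).swap) l (by simp [h0]) (by simp [hl]) fun k hk => (hw k hk).swap

theorem IsRay.flip {ω : Sym2 V → ℝ} {γ : ℕ → V} (h : IsRay ω γ) :
    IsRay (Tube.flip ω) (fun k => (γ k).swap) :=
  ⟨Prod.swap_injective.comp h.1, fun k => (h.2.1 k).swap, fun i m => geo_flip (h.2.2 i m)⟩

theorem main (G : Measure ℝ) [IsProbabilityMeasure G] [NullSingletonClass G] (h0 : G (Set.Iio 0) = 0) :
    ∃ c : ℝ, 0 < c ∧ ∀ᵐ ω ∂law G,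
      (∀ γ, IsRay ω γ → ∀ α β κ : ℝ, α ^ 2 + β ^ 2 = 1 →
        ∃ᶠ i in atTop, c * log (2 + |((γ i).1 : ℝ)| + |((γ i).2 : ℝ)|) <
          |α * (γ i).1 + β * (γ i).2 - κ|) ∧
      ∀ γ, IsBigeodesic ω γ → ∀ α β κ W : ℝ, α ^ 2 + β ^ 2 = 1 →
        ∃ i : ℤ, W < |α * (γ i).1 + β * (γ i).2 - κ| := by
  obtain ⟨c, hc, -, hae⟩ := ray_tubes G h0
  refine ⟨c / 2, by linarith, ?_⟩
  have hmap : (law G).map flip = law G :=
    Measure.map_infinitePi_infinitePi_of_inj (Sym2.map.injective Prod.swap_injective)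
  have hae' : ∀ᵐ ω ∂law G, ∀ γ, IsRay (flip ω) γ → ∀ s t : ℝ, |s| ≤ 1 →
      ∃ᶠ i in atTop, c * log (2 + |((γ i).1 : ℝ)| + |((γ i).2 : ℝ)|) <
        |((γ i).2 : ℝ) - s * (γ i).1 - t| := by
    have h : ∀ᵐ ω ∂(law G).map flip, ∀ γ, IsRay ω γ → ∀ s t : ℝ, |s| ≤ 1 →
        ∃ᶠ i in atTop, c * log (2 + |((γ i).1 : ℝ)| + |((γ i).2 : ℝ)|) <
          |((γ i).2 : ℝ) - s * (γ i).1 - t| := by rwa [hmap]
    exact ae_of_ae_map
      (measurable_pi_lambda _ fun e => measurable_pi_apply _).aemeasurable h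
  filter_upwards [hae, hae'] with ω h1 h2
  have key : ∀ α β κ x y D : ℝ, 1 ≤ 2 * β ^ 2 → 0 ≤ D →
      D < |y - -α / β * x - κ / β| → D / 2 < |α * x + β * y - κ| := by
    intro α β κ x y D hβ hD h
    have hβ0 : β ≠ 0 := fun h => by rw [h] at hβ; norm_num at hβ
    have hβ' : 1 / 2 < |β| := by nlinarith [sq_abs β, abs_nonneg β]
    have e : |α * x + β * y - κ| = |β| * |y - -α / β * x - κ / β| := by
      rw [← abs_mul]; congr 1; field_simp; ring
    rw [e]
    nlinarith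
  have hslope : ∀ α β : ℝ, α ^ 2 + β ^ 2 = 1 → 1 ≤ 2 * β ^ 2 → |-α / β| ≤ 1 := fun α β h hβ => by
    have hβ0 : β ≠ 0 := fun h => by rw [h] at hβ; norm_num at hβ
    rw [abs_div, abs_neg, div_le_one (abs_pos.2 hβ0)]
    exact sq_le_sq.1 (by linarith)
  have hlines : ∀ γ, IsRay ω γ → ∀ α β κ : ℝ, α ^ 2 + β ^ 2 = 1 →
      ∃ᶠ i in atTop, c / 2 * log (2 + |((γ i).1 : ℝ)| + |((γ i).2 : ℝ)|) <
        |α * (γ i).1 + β * (γ i).2 - κ| := by
    intro γ hγ α β κ hab
    have hnn : ∀ u : V, 0 ≤ c * log (2 + |(u.1 : ℝ)| + |(u.2 : ℝ)|) := fun u =>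
      mul_nonneg hc.le (log_nonneg (by linarith [abs_nonneg (u.1 : ℝ), abs_nonneg (u.2 : ℝ)]))
    by_cases hβ : 1 ≤ 2 * β ^ 2
    · refine (h1 γ hγ (-α / β) (κ / β) (hslope α β hab hβ)).mono fun i hi => ?_
      have := key α β κ _ _ _ hβ (hnn (γ i)) hi
      linarith
    · have hα : 1 ≤ 2 * α ^ 2 := by linarith [not_le.1 hβ]
      refine (h2 _ hγ.flip (-β / α) (κ / α) (hslope β α (by linarith) hα)).mono fun i hi => ?_
      simp only [Prod.fst_swap, Prod.snd_swap] at hi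
      rw [add_right_comm (2 : ℝ)] at hi
      have := key β α κ _ _ _ hα (hnn (γ i)) hi
      rw [add_comm (β * _)] at this
      linarith
  refine ⟨hlines, fun γ ⟨hinj, hadj, hgeo⟩ α β κ W hab => ?_⟩
  have hray : IsRay ω fun k : ℕ => γ k :=
    ⟨fun i j h => by exact_mod_cast hinj h, fun k => by simpa using hadj k,
      fun i m => by simpa using hgeo i m⟩
  have hlarge : ∀ᶠ i : ℕ in atTop, W ≤ c / 2 * log (2 + |((γ i).1 : ℝ)| + |((γ i).2 : ℝ)|) := by
    obtain ⟨R, hR⟩ := exists_nat_gt (exp (2 * W / c))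
    have hfin : {i : ℕ | γ i ∈ Finset.Icc (-(R : ℤ)) R ×ˢ Finset.Icc (-(R : ℤ)) R}.Finite :=
      (Finset.finite_toSet _).preimage hray.1.injOn
    filter_upwards [Nat.cofinite_eq_atTop ▸ hfin.eventually_cofinite_notMem] with i hi
    simp only [Finset.mem_product, Finset.mem_Icc, ← abs_le, not_and_or, not_le] at hi
    have hbig : exp (2 * W / c) ≤ 2 + |((γ i).1 : ℝ)| + |((γ i).2 : ℝ)| := by
      rcases hi with hi | hi
      · have : ((R : ℤ) : ℝ) ≤ ((|(γ i).1| : ℤ) : ℝ) := by exact_mod_cast hi.le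
        push_cast at this
        linarith [abs_nonneg ((γ i).2 : ℝ)]
      · have : ((R : ℤ) : ℝ) ≤ ((|(γ i).2| : ℤ) : ℝ) := by exact_mod_cast hi.le
        push_cast at this
        linarith [abs_nonneg ((γ i).1 : ℝ)]
    have h := log_le_log (exp_pos _) hbig
    rw [log_exp, div_le_iff₀ hc] at h
    linarith
  obtain ⟨i, hi1, hi2⟩ := ((hlines _ hray α β κ hab).and_eventually hlarge).exists
  exact ⟨i, hi2.trans_lt hi1⟩

end Vale.Agent.P158.Tube
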