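import Mathlib

/-! Paths and geodesics of first-passage percolation on `ℤ²`. -/

noncomputable section

namespace Vale.Agent.P158.Tube

open Finset

/-- Vertices. -/
abbrev V : Type := ℤ × ℤ

/-- Nearest neighbours. -/
def Adj (u v : V) : Prop := |u.1 - v.1| + |u.2 - v.2| = 1

/-- Cost of a walk of `m` steps. -/
def cost (ω : Sym2 V → ℝ) (p : ℕ → V) (m : ℕ) : ℝ := ∑ k ∈ range m, ω s(p k, p (k + 1))

/-- A walk of `m` steps. -/
def IsWalk (p : ℕ → V) (m : ℕ) : Prop := ∀ k < m, Adj (p k) (p (k + 1))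

/-- A finite geodesic. -/
def Geo (ω : Sym2 V → ℝ) (p : ℕ → V) (m : ℕ) : Prop :=
  ∀ (q : ℕ → V) (l : ℕ), q 0 = p 0 → q l = p m → IsWalk q l → cost ω p m ≤ cost ω q l

theorem Adj.symm {u v : V} (h : Adj u v) : Adj v u := by
  unfold Adj at *; rw [abs_sub_comm v.1, abs_sub_comm v.2]; exact h

theorem Adj.swap {u v : V} (h : Adj u v) : Adj u.swap v.swap := by
  unfold Adj at *; simp only [Prod.fst_swap, Prod.snd_swap]; rw [add_comm]; exact h

theorem adj_horiz (x y : ℤ) : Adj (x, y) (x + 1, y) := by simp [Adj]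

theorem adj_vert (x y : ℤ) : Adj (x, y) (x, y + 1) := by simp [Adj]

theorem l1_le {p : ℕ → V} {m : ℕ} (hp : IsWalk p m) :
    |(p m).1 - (p 0).1| + |(p m).2 - (p 0).2| ≤ m := by
  induction m with
  | zero => simp
  | succ m ih =>
    have h := ih fun k hk => hp k (by omega)
    have h1 := hp m (by omega)
    unfold Adj at h1
    push_cast
    have a := abs_sub_le (p (m+1)).1 (p m).1 (p 0).1
    have b := abs_sub_le (p (m+1)).2 (p m).2 (p 0).2
    rw [abs_sub_comm (p (m+1)).1 (p m).1, abs_sub_comm (p (m+1)).2 (p m).2] at *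
    linarith

/-- Reversal of a walk. -/
def rev (p : ℕ → V) (m : ℕ) : ℕ → V := fun k => p (m - k)

theorem isWalk_rev {p : ℕ → V} {m : ℕ} (hp : IsWalk p m) : IsWalk (rev p m) m := by
  intro k hk
  have h := (hp (m - (k + 1)) (by omega)).symm
  rwa [show m - (k + 1) + 1 = m - k by omega] at h

theorem cost_rev (ω : Sym2 V → ℝ) (p : ℕ → V) (m : ℕ) : cost ω (rev p m) m = cost ω p m := by
  unfold cost rev
  rw [← Finset.sum_range_reflect (fun k => ω s(p k, p (k + 1))) m]
  refine Finset.sum_congr rfl fun k hk => ?_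
  have hk := Finset.mem_range.1 hk
  rw [show m - 1 - k = m - (k + 1) by omega, show m - (k + 1) + 1 = m - k by omega, Sym2.eq_swap]

theorem Geo.rev {ω : Sym2 V → ℝ} {p : ℕ → V} {m : ℕ} (h : Geo ω p m) :
    Geo ω (Tube.rev p m) m := by
  intro q l h0 hl hw
  rw [cost_rev, ← cost_rev ω q l]
  exact h _ l (by simpa [Tube.rev] using hl) (by simpa [Tube.rev] using h0) (isWalk_rev hw)

/-- There is a walk from `u` to `v` of length at most `N` using edges of `S`. -/
def Reach (S : Finset (Sym2 V)) (u v : V) (N : ℕ) : Prop :=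
  ∃ (p : ℕ → V) (m : ℕ), m ≤ N ∧ p 0 = u ∧ p m = v ∧ IsWalk p m ∧
    ∀ k < m, s(p k, p (k + 1)) ∈ S

theorem Reach.refl (S : Finset (Sym2 V)) (u : V) (N : ℕ) : Reach S u u N :=
  ⟨fun _ => u, 0, Nat.zero_le _, rfl, rfl, fun k hk => absurd hk (by omega),
    fun k hk => absurd hk (by omega)⟩

theorem Reach.step {S : Finset (Sym2 V)} {u v : V} (h : Adj u v) (he : s(u, v) ∈ S) :
    Reach S u v 1 := by
  refine ⟨fun k => if k = 0 then u else v, 1, le_rfl, rfl, rfl, fun k hk => ?_, fun k hk => ?_⟩ <;>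
  · obtain rfl : k = 0 := by omega
    simpa using ‹_›

theorem Reach.trans {S : Finset (Sym2 V)} {u v w : V} {M N : ℕ} (h₁ : Reach S u v M)
    (h₂ : Reach S v w N) : Reach S u w (M + N) := by
  obtain ⟨p, m, hm, hp0, hpm, hpw, hpS⟩ := h₁
  obtain ⟨q, l, hl, hq0, hql, hqw, hqS⟩ := h₂
  let f : ℕ → V := fun k => if k ≤ m then p k else q (k - m)
  have hA : ∀ k < m, f k = p k ∧ f (k + 1) = p (k + 1) := fun k hk =>
    ⟨if_pos hk.le, if_pos hk⟩
  have hB : ∀ k, m ≤ k → f k = q (k - m) ∧ f (k + 1) = q (k - m + 1) := fun k hk => by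
    refine ⟨?_, ?_⟩
    · by_cases h : k ≤ m
      · obtain rfl : k = m := by omega
        simp [f, hpm, hq0]
      · simp [f, h]
    · simp [f, show ¬ k + 1 ≤ m by omega, show k + 1 - m = k - m + 1 by omega]
  refine ⟨f, m + l, by omega, ?_, ?_, fun k hk => ?_, fun k hk => ?_⟩
  · simp [f, hp0]
  · rw [(hB (m + l) (by omega)).1]; simpa using hql
  all_goals
    by_cases h : k < m
    · rw [(hA k h).1, (hA k h).2]
      first | exact hpw k h | exact hpS k h
    · rw [(hB k (by omega)).1, (hB k (by omega)).2]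
      first | exact hqw _ (by omega) | exact hqS _ (by omega)

theorem Reach.symm {S : Finset (Sym2 V)} {u v : V} {N : ℕ} (h : Reach S u v N) :
    Reach S v u N := by
  obtain ⟨p, m, hm, hp0, hpm, hpw, hpS⟩ := h
  refine ⟨rev p m, m, hm, by simpa [rev] using hpm, by simpa [rev] using hp0, isWalk_rev hpw,
    fun k hk => ?_⟩
  have h := hpS (m - (k + 1)) (by omega)
  rw [show m - (k + 1) + 1 = m - k by omega, Sym2.eq_swap] at h
  exact h

theorem Reach.mono {S : Finset (Sym2 V)} {u v : V} {M N : ℕ} (h : Reach S u v M) (hMN : M ≤ N) :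
    Reach S u v N := by
  obtain ⟨p, m, hm, r⟩ := h
  exact ⟨p, m, hm.trans hMN, r⟩

end Vale.Agent.P158.Tube
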