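import Vale.Agent.P158.Tube.Basic

/-! A block of a tube with a cheap way round it. -/

noncomputable section

namespace Vale.Agent.P158.Tube

open Finset
open scoped Classical

/-- `g` moves by `0` or `σ` in each step. -/
def Step (g : ℤ → ℤ) (σ : ℤ) : Prop :=
  (σ = 1 ∨ σ = -1) ∧ ∀ x, g (x + 1) - g x = 0 ∨ g (x + 1) - g x = σ

variable (g : ℤ → ℤ) (x₀ : ℤ) (L w : ℕ)

/-- The vertices of the block of the tube. -/
def tube : Finset V :=
  ((range (L + 1)) ×ˢ (range (2 * w + 1))).image
    fun ik => (x₀ + ik.1, g (x₀ + ik.1) - w + ik.2)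

/-- The inner edges. -/
def inner : Finset (Sym2 V) :=
  (tube g x₀ L w).sym2.filter fun e =>
    ¬(∀ v ∈ e, v.1 = x₀) ∧ ¬(∀ v ∈ e, v.1 = x₀ + L)

/-- The level just above the tube. -/
def top (x : ℤ) : ℤ := g x + w + 1

/-- The vertical edges of a boundary column. -/
def column (x : ℤ) : Finset (Sym2 V) :=
  (range (2 * w + 1)).image fun k : ℕ => s((x, g x - w + k), (x, g x - w + k + 1))

/-- The staircase above the tube. -/
def stair : Finset (Sym2 V) :=
  (range L).biUnion fun j : ℕ =>
    let x : ℤ := x₀ + j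
    let M := max (top g w x) (top g w (x + 1))
    {s((x, top g w x), (x, M)), s((x, M), (x + 1, M)), s((x + 1, M), (x + 1, top g w (x + 1)))}

/-- The edges of the detour. -/
def detour : Finset (Sym2 V) :=
  column g w x₀ ∪ column g w (x₀ + L) ∪ stair g x₀ L w

variable {g x₀ L w}

theorem mem_tube {v : V} :
    v ∈ tube g x₀ L w ↔ x₀ ≤ v.1 ∧ v.1 ≤ x₀ + L ∧ |v.2 - g v.1| ≤ w := by
  constructor
  · intro h
    obtain ⟨⟨i, k⟩, hik, rfl⟩ := Finset.mem_image.1 h
    obtain ⟨hi, hk⟩ := Finset.mem_product.1 hik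
    rw [Finset.mem_range] at hi hk
    refine ⟨by simp, by simp; omega, ?_⟩
    simp only
    rw [abs_le]
    omega
  · rintro ⟨h1, h2, h3⟩
    rw [abs_le] at h3
    refine Finset.mem_image.2 ⟨((v.1 - x₀).toNat, (v.2 - g v.1 + w).toNat), ?_, ?_⟩
    · simp only [Finset.mem_product, Finset.mem_range]; omega
    · have : x₀ + ((v.1 - x₀).toNat : ℤ) = v.1 := by omega
      simp only [this]
      exact Prod.ext rfl (by simp only; omega)

theorem card_tube_le : (tube g x₀ L w).card ≤ (L + 1) * (2 * w + 1) :=
  Finset.card_image_le.trans (by simp)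

theorem card_column_le (x : ℤ) : (column g w x).card ≤ 2 * w + 1 :=
  Finset.card_image_le.trans (by simp)

theorem card_detour_le : (detour g x₀ L w).card ≤ 2 * (2 * w + 1) + 3 * L := by
  refine (Finset.card_union_le _ _).trans (Nat.add_le_add
    ((Finset.card_union_le _ _).trans ?_) ?_)
  · have h1 := card_column_le (g := g) (w := w) x₀
    have h2 := card_column_le (g := g) (w := w) (x₀ + L)
    omega
  · refine (Finset.card_biUnion_le_card_mul _ _ 3 fun j _ => Finset.card_le_three).trans ?_
    simp [mul_comm]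

theorem inner_fst {e : Sym2 V} (he : e ∈ inner g x₀ L w) {v : V} (hv : v ∈ e) :
    x₀ ≤ v.1 ∧ v.1 ≤ x₀ + L := by
  have h := (Finset.mem_filter.1 he).1
  have := mem_tube.1 (Finset.mem_sym2_iff.1 h v hv)
  exact ⟨this.1, this.2.1⟩

theorem detour_fst {e : Sym2 V} (he : e ∈ detour g x₀ L w) {v : V} (hv : v ∈ e) :
    x₀ ≤ v.1 ∧ v.1 ≤ x₀ + L := by
  rcases Finset.mem_union.1 he with h | h
  · rcases Finset.mem_union.1 h with h | h <;> obtain ⟨k, -, rfl⟩ := Finset.mem_image.1 h <;>
      rcases Sym2.mem_iff.1 hv with rfl | rfl <;> simp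
  · obtain ⟨j, hj, h⟩ := Finset.mem_biUnion.1 h
    rw [Finset.mem_range] at hj
    simp only [Finset.mem_insert, Finset.mem_singleton] at h
    rcases h with rfl | rfl | rfl <;> rcases Sym2.mem_iff.1 hv with rfl | rfl <;>
      constructor <;> simp only <;> omega

theorem disjoint_inner_detour : Disjoint (inner g x₀ L w) (detour g x₀ L w) := by
  rw [Finset.disjoint_left]
  intro e he hd
  obtain ⟨he1, he2, he3⟩ := Finset.mem_filter.1 he
  have inT : ∀ v ∈ e, |v.2 - g v.1| ≤ w := fun v hv =>
    (mem_tube.1 (Finset.mem_sym2_iff.1 he1 v hv)).2.2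
  rcases Finset.mem_union.1 hd with h | h
  · rcases Finset.mem_union.1 h with h | h <;> obtain ⟨k, -, rfl⟩ := Finset.mem_image.1 h
    · exact he2 fun v hv => by rcases Sym2.mem_iff.1 hv with rfl | rfl <;> rfl
    · exact he3 fun v hv => by rcases Sym2.mem_iff.1 hv with rfl | rfl <;> rfl
  · obtain ⟨j, hj, h⟩ := Finset.mem_biUnion.1 h
    simp only [Finset.mem_insert, Finset.mem_singleton] at h
    rcases h with rfl | rfl | rfl
    · have := inT _ (Sym2.mem_mk_left _ _)
      simp only [top, abs_le] at this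
      omega
    · have := inT _ (Sym2.mem_mk_left _ _)
      simp only [abs_le] at this
      have := le_max_left (top g w (x₀ + j)) (top g w (x₀ + j + 1))
      simp only [top] at *
      omega
    · have := inT _ (Sym2.mem_mk_right _ _)
      simp only [top, abs_le] at this
      omega

theorem reach_column (x : ℤ) (S : Finset (Sym2 V)) (hS : column g w x ⊆ S) :
    ∀ d, d ≤ 2 * w + 1 → Reach S (x, top g w x - d) (x, top g w x) d := by
  intro d
  induction d with
  | zero => intro _; simpa using Reach.refl S (x, top g w x) 0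
  | succ d ih =>
    intro hd
    have e1 : ((x, top g w x - ((d + 1 : ℕ) : ℤ)) : V).2 + 1 = top g w x - d := by
      simp only; push_cast; ring
    have hstep : Reach S (x, top g w x - ((d + 1 : ℕ) : ℤ)) (x, top g w x - d) 1 := by
      refine Reach.step ?_ (hS ?_)
      · rw [← e1]; exact adj_vert _ _
      · refine Finset.mem_image.2 ⟨2 * w - d, Finset.mem_range.2 (by omega), ?_⟩
        congr 2 <;>
        · simp only [top, Prod.mk.injEq, true_and]; omega
    exact (hstep.trans (ih (by omega))).mono (by omega)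

theorem reach_stair {σ : ℤ} (hg : Step g σ) :
    ∀ j, j ≤ L → ∃ N : ℕ, (N : ℤ) = j + σ * (g (x₀ + j) - g x₀) ∧
      Reach (detour g x₀ L w) (x₀, top g w x₀) (x₀ + j, top g w (x₀ + j)) N := by
  intro j
  induction j with
  | zero => intro _; exact ⟨0, by simp, by simpa using Reach.refl _ _ 0⟩
  | succ j ih =>
    intro hj
    obtain ⟨N, hN, hR⟩ := ih (by omega)
    set x : ℤ := x₀ + j with hx
    set M := max (top g w x) (top g w (x + 1)) with hM
    have hmem : ∀ e ∈ ({s((x, top g w x), (x, M)), s((x, M), (x + 1, M)),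
        s((x + 1, M), (x + 1, top g w (x + 1)))} : Finset (Sym2 V)), e ∈ detour g x₀ L w :=
      fun e he => Finset.mem_union_right _
        (Finset.mem_biUnion.2 ⟨j, Finset.mem_range.2 (by omega), he⟩)
    have hh : Reach (detour g x₀ L w) (x, M) (x + 1, M) 1 :=
      Reach.step (adj_horiz _ _) (hmem _ (by simp))
    have hx1 : x₀ + ((j + 1 : ℕ) : ℤ) = x + 1 := by rw [hx]; push_cast; ring
    rw [hx1]
    rcases hg.2 x with h | h
    · have hM1 : top g w x = M := by simp only [hM, top]; omega
      have hM2 : top g w (x + 1) = M := by simp only [hM, top]; omega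
      refine ⟨N + 1, ?_, ?_⟩
      · push_cast; rw [hN, show g (x + 1) = g x by omega]; ring
      · rw [hM2]; rw [hM1] at hR; exact hR.trans hh
    · refine ⟨N + 2, ?_, ?_⟩
      · push_cast; rw [hN, show g (x + 1) = g x + σ by omega]
        rcases hg.1 with rfl | rfl <;> ring
      · rcases hg.1 with rfl | rfl
        · have hM2 : top g w (x + 1) = M := by simp only [hM, top]; omega
          have hv : Reach (detour g x₀ L w) (x, top g w x) (x, M) 1 := by
            refine Reach.step ?_ (hmem _ (by simp))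
            rw [show M = top g w x + 1 by simp only [hM, top]; omega]
            exact adj_vert _ _
          rw [hM2]; exact hR.trans (hv.trans hh)
        · have hM1 : top g w x = M := by simp only [hM, top]; omega
          have hv : Reach (detour g x₀ L w) (x + 1, M) (x + 1, top g w (x + 1)) 1 := by
            refine Reach.step ?_ (hmem _ (by simp))
            rw [show M = top g w (x + 1) + 1 by simp only [hM, top]; omega]
            exact (adj_vert _ _).symm
          rw [hM1] at hR; exact hR.trans (hh.trans hv)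

theorem reach_detour {σ : ℤ} (hg : Step g σ) {y₀ y₁ : ℤ} (h₀ : |y₀ - g x₀| ≤ w)
    (h₁ : |y₁ - g (x₀ + L)| ≤ w) :
    Reach (detour g x₀ L w) (x₀, y₀) (x₀ + L, y₁) (L + (y₁ - y₀).natAbs + 8 * w + 4) := by
  rw [abs_le] at h₀ h₁
  obtain ⟨N, hN, hR⟩ := reach_stair (x₀ := x₀) (L := L) (w := w) hg L le_rfl
  have hc₀ := reach_column (g := g) (w := w) x₀ (detour g x₀ L w)
    (Finset.subset_union_left.trans Finset.subset_union_left) (top g w x₀ - y₀).toNat
    (by simp only [top]; omega)
  have hc₁ := reach_column (g := g) (w := w) (x₀ + L) (detour g x₀ L w)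
    (Finset.subset_union_right.trans Finset.subset_union_left) (top g w (x₀ + L) - y₁).toNat
    (by simp only [top]; omega)
  rw [show top g w x₀ - ((top g w x₀ - y₀).toNat : ℤ) = y₀ by simp only [top]; omega] at hc₀
  rw [show top g w (x₀ + L) - ((top g w (x₀ + L) - y₁).toNat : ℤ) = y₁ by
    simp only [top]; omega] at hc₁
  refine ((hc₀.trans hR).trans hc₁.symm).mono ?_
  simp only [top] at *
  rcases hg.1 with rfl | rfl <;> omega

end Vale.Agent.P158.Tube
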