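import Vale.Agent.P158.Tube.Event

/-! Every tube at scale `n` contains a good block, eventually almost surely. -/

noncomputable section

namespace Vale.Agent.P158.Tube

open Finset MeasureTheory ProbabilityTheory Filter Topology Real
open scoped Classical ENNReal

variable (G : Measure ℝ) [IsProbabilityMeasure G]

theorem law_forall_not_le (S : ℕ → Finset (Sym2 V)) (A : ℕ → Set (Sym2 V → ℝ)) (M : ℕ)
    (hd : ∀ i < M, ∀ j < M, i ≠ j → Disjoint (S i) (S j)) (hA : ∀ i < M, MeasurableSet (A i))
    (dA : ∀ i < M, Determined (S i) (A i)) {ρ : ℝ≥0∞} (hρ : ∀ i < M, ρ ≤ law G (A i)) :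
    law G {ω | ∀ i < M, ω ∉ A i} ≤ (1 - ρ) ^ M := by
  suffices H : ∀ N ≤ M, MeasurableSet {ω | ∀ i < N, ω ∉ A i} ∧
      Determined ((range N).biUnion S) {ω | ∀ i < N, ω ∉ A i} ∧
      law G {ω | ∀ i < N, ω ∉ A i} ≤ (1 - ρ) ^ N from (H M le_rfl).2.2
  intro N
  induction N with
  | zero => intro _; simp [Determined]
  | succ N ih =>
    intro hN
    obtain ⟨h1, h2, h3⟩ := ih (by omega)
    have hN' : N < M := hN
    have e : {ω | ∀ i < N + 1, ω ∉ A i} = {ω | ∀ i < N, ω ∉ A i} ∩ (A N)ᶜ := by
      ext ω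
      refine ⟨fun h => ⟨fun i hi => h i (by omega), h N (by omega)⟩, fun h i hi => ?_⟩
      rcases Nat.lt_succ_iff_lt_or_eq.1 hi with hi | rfl
      exacts [h.1 i hi, h.2]
    have hdis : Disjoint ((range N).biUnion S) (S N) := by
      rw [Finset.disjoint_biUnion_left]
      intro i hi
      rw [Finset.mem_range] at hi
      exact hd i (by omega) N hN' (by omega)
    rw [e]
    refine ⟨h1.inter (hA N hN').compl, ?_, ?_⟩
    · rw [Finset.range_add_one, Finset.biUnion_insert]
      exact (h2.mono Finset.subset_union_right).inter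
        ((dA N hN').compl.mono Finset.subset_union_left)
    · rw [law_inter G hdis h1 (hA N hN').compl h2 (dA N hN').compl, pow_succ]
      refine mul_le_mul' h3 ?_
      rw [prob_compl_eq_one_sub (hA N hN')]
      exact tsub_le_tsub_left (hρ N hN') _

/-- A discretised line. -/
def gline (n : ℕ) (a b : ℤ) (x : ℤ) : ℤ := b + a * x / n

theorem step_gline {n : ℕ} (hn : 0 < n) {a : ℤ} (ha : |a| ≤ n) (b : ℤ) :
    ∃ σ, Step (gline n a b) σ := by
  rw [abs_le] at ha
  have hn' : (0 : ℤ) < n := by exact_mod_cast hn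
  have key : ∀ y z : ℤ, y ≤ z → z ≤ y + n → z / n - y / n = 0 ∨ z / n - y / n = 1 :=
    fun y z h1 h2 => by
      have e1 := Int.ediv_le_ediv hn' h1
      have e2 := Int.ediv_le_ediv hn' h2
      have e3 : (y + n) / (n : ℤ) = y / n + 1 := by
        simpa using Int.add_mul_ediv_right y 1 hn'.ne'
      omega
  rcases le_total 0 a with h | h
  · refine ⟨1, Or.inl rfl, fun x => ?_⟩
    rcases key (a * x) (a * (x + 1)) (by nlinarith) (by nlinarith) with e | e <;>
      simp only [gline] <;> omega
  · refine ⟨-1, Or.inr rfl, fun x => ?_⟩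
    rcases key (a * (x + 1)) (a * x) (by nlinarith) (by nlinarith) with e | e <;>
      simp only [gline] <;> omega

/-- The start of the range of columns on either side. -/
def base (n : ℕ) (side : Bool) : ℤ := if side then n else -2 * n

/-- Half width at scale `n`. -/
def wid (γ : ℝ) (n : ℕ) : ℕ := ⌊γ * log n⌋₊

/-- First column of the `k`-th block. -/
def blk (K : ℕ) (γ : ℝ) (n : ℕ) (side : Bool) (k : ℕ) : ℤ :=
  base n side + k * (K * wid γ n + 1 : ℕ)

/-- Number of blocks. -/
def num (K : ℕ) (γ : ℝ) (n : ℕ) : ℕ := n / (K * wid γ n + 1)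

theorem blk_range {K : ℕ} {γ : ℝ} {n : ℕ} {side : Bool} {k : ℕ} (hk : k < num K γ n) :
    base n side ≤ blk K γ n side k ∧
      blk K γ n side k + (K * wid γ n : ℕ) ≤ base n side + n := by
  simp only [num] at hk
  set S := K * wid γ n + 1 with hS
  have h : (k + 1) * S ≤ n := le_trans (Nat.mul_le_mul_right S hk) (Nat.div_mul_le_self n S)
  have h' : ((k : ℤ) + 1) * (S : ℤ) ≤ n := by exact_mod_cast h
  have h0 : (0 : ℤ) ≤ (k : ℤ) * (S : ℤ) := by positivity
  have hS' : (S : ℤ) = (K * wid γ n : ℕ) + 1 := by rw [hS]; push_cast; ring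
  simp only [blk]
  rw [← hS]
  constructor <;> nlinarith

theorem support_disjoint {g : ℤ → ℤ} {L w : ℕ} {x y : ℤ} (h : x + L < y) :
    Disjoint (support g x L w) (support g y L w) := by
  have key : ∀ z, ∀ e ∈ support g z L w, ∀ v ∈ e, z ≤ v.1 ∧ v.1 ≤ z + L := fun z e he v hv => by
    rcases Finset.mem_union.1 he with he | he
    exacts [inner_fst he hv, detour_fst he hv]
  rw [Finset.disjoint_left]
  intro e h1 h2
  induction e using Sym2.ind with
  | _ u v =>
    have a := key x _ h1 u (Sym2.mem_mk_left _ _)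
    have b := key y _ h2 u (Sym2.mem_mk_left _ _)
    omega

theorem eventually_blocks {α β : ℝ} (hq : G (Set.Iic α) ≤ (1 / 16) ^ 2)
    (hp : 0 < G (Set.Iic β)) (hp1 : G (Set.Iic β) < 1) {K : ℕ} (hK : 30 ≤ K) :
    ∃ γ : ℝ, 0 < γ ∧ ∀ᵐ ω ∂law G, ∀ᶠ n : ℕ in atTop, ∀ a b : ℤ, |a| ≤ n → |b| ≤ n →
      ∀ side, ∃ k < num K γ n,
        ω ∈ good (gline n a b) (blk K γ n side k) (K * wid γ n) (wid γ n) α β := by
  set p : ℝ := (G (Set.Iic β)).toReal with hpdef
  have hp' : 0 < p := ENNReal.toReal_pos hp.ne' (measure_ne_top _ _)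
  have hp1' : p < 1 := by
    rw [hpdef, ← ENNReal.toReal_one]
    exact ENNReal.toReal_strict_mono ENNReal.one_ne_top hp1
  set κ : ℝ := -log p with hκ
  have hκ' : 0 < κ := by rw [hκ, neg_pos]; exact log_neg hp' hp1'
  set C : ℝ := 6 + 3 * K with hC
  have hC' : 0 < C := by rw [hC]; positivity
  set γ : ℝ := 1 / (4 * C * κ) with hγdef
  have hγ : 0 < γ := by positivity
  refine ⟨γ, hγ, ?_⟩
  let F : ℕ → Set (Sym2 V → ℝ) := fun n =>
    ⋃ a ∈ Finset.Icc (-(n : ℤ)) n, ⋃ b ∈ Finset.Icc (-(n : ℤ)) n, ⋃ side : Bool,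
      {ω | ∀ k < num K γ n,
        ω ∉ good (gline n a b) (blk K γ n side k) (K * wid γ n) (wid γ n) α β}
  have ht : Tendsto (fun n : ℕ => sqrt (sqrt n)) atTop atTop :=
    tendsto_sqrt_atTop.comp (tendsto_sqrt_atTop.comp tendsto_natCast_atTop_atTop)
  have hexp : ∀ᶠ t : ℝ in atTop, 18 * t ^ 16 * exp (-(t ^ 2 / 2)) ≤ 1 := by
    have h := ((tendsto_pow_mul_exp_neg_atTop_nhds_zero 8).comp
      ((tendsto_pow_atTop (α := ℝ) two_ne_zero).atTop_div_const two_pos)).const_mul
        (18 * (2 : ℝ) ^ 8)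
    rw [mul_zero] at h
    filter_upwards [h.eventually (ge_mem_nhds one_pos)] with t htt
    refine le_trans (le_of_eq ?_) htt
    simp only [Function.comp]
    ring
  have hlog : ∀ᶠ t : ℝ in atTop, (K * γ * (4 * log t) + 1) * 2 ≤ t := by
    have h := isLittleO_log_id_atTop.bound (show (0 : ℝ) < 1 / (16 * (K * γ + 1)) by positivity)
    filter_upwards [h, eventually_ge_atTop 4, eventually_ge_atTop 1] with t ht h4 h1
    rw [norm_of_nonneg (log_nonneg h1), id, norm_of_nonneg (by linarith)] at ht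
    rw [div_mul_eq_mul_div, one_mul, le_div_iff₀ (by positivity)] at ht
    have : 0 ≤ log t := log_nonneg h1
    nlinarith
  have hF : ∀ᶠ n : ℕ in atTop, law G (F n) ≤ ENNReal.ofReal (1 / (n : ℝ) ^ 2) := by
    filter_upwards [ht.eventually hexp, ht.eventually hlog,
      (tendsto_log_atTop.comp tendsto_natCast_atTop_atTop).eventually
        (eventually_ge_atTop (1 / γ)), eventually_ge_atTop 1] with n he hl hw hn1
    set t := sqrt (sqrt n) with htdef
    have hn : (1 : ℝ) ≤ n := by exact_mod_cast hn1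
    have htn : t ^ 4 = n := by
      rw [htdef, show (4 : ℕ) = 2 * 2 from rfl, pow_mul, sq_sqrt (sqrt_nonneg _),
        sq_sqrt (by positivity)]
    have htpos : 0 < t := sqrt_pos.2 (sqrt_pos.2 (by linarith))
    have hlogt : log n = 4 * log t := by rw [← htn, log_pow]; norm_num
    set w := wid γ n with hwdef
    have hlogn : 0 ≤ log n := log_nonneg hn
    have hw1 : 1 ≤ w := Nat.le_floor (by
      push_cast; rw [Function.comp, div_le_iff₀ hγ] at hw; linarith)
    have hwle : (w : ℝ) ≤ γ * log n := Nat.floor_le (by positivity)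
    set L := K * w with hLdef
    have hL : 30 ≤ L := le_trans hK (Nat.le_mul_of_pos_right _ hw1)
    have hwL : w ≤ L := Nat.le_mul_of_pos_left _ (by omega)
    set ρ : ℝ := 1 / 2 * p ^ (2 * (2 * w + 1) + 3 * L) with hρdef
    have hρ1 : t⁻¹ / 2 ≤ ρ := by
      have h1 : ((2 * (2 * w + 1) + 3 * L : ℕ) : ℝ) ≤ C * w := by
        rw [hLdef, hC]; push_cast
        have : (1 : ℝ) ≤ w := by exact_mod_cast hw1
        nlinarith
      have h2 : t⁻¹ ≤ p ^ (2 * (2 * w + 1) + 3 * L) := by
        rw [← exp_log (inv_pos.2 htpos), ← exp_log (pow_pos hp' _), exp_le_exp, log_inv, log_pow,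
          show log p = -κ by rw [hκ]; ring]
        have h3 : C * (w : ℝ) * κ ≤ log t := by
          calc C * (w : ℝ) * κ ≤ C * (γ * log n) * κ := by gcongr
            _ = log t := by rw [hlogt, hγdef]; field_simp
        nlinarith
      rw [hρdef]; linarith
    have hρ2 : ρ ≤ 1 := by
      have := pow_le_one₀ (n := 2 * (2 * w + 1) + 3 * L) hp'.le hp1'.le
      rw [hρdef]; linarith
    set M := num K γ n with hMdef
    have hM : t ^ 3 ≤ (M : ℝ) := by
      have hS : ((L + 1 : ℕ) : ℝ) * 2 ≤ t := by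
        rw [hLdef]; push_cast
        have : (K : ℝ) * w ≤ K * γ * (4 * log t) := by
          rw [← hlogt, mul_assoc]; gcongr
        nlinarith
      have hd : n < (M + 1) * (L + 1) := by
        rw [hMdef, num, ← hLdef, mul_comm]
        exact Nat.lt_mul_div_succ n (by omega)
      have hd' : (n : ℝ) ≤ ((M : ℝ) + 1) * ((L + 1 : ℕ) : ℝ) := by exact_mod_cast hd.le
      have hM0 : (0 : ℝ) ≤ M := by positivity
      have hS0 : (1 : ℝ) ≤ ((L + 1 : ℕ) : ℝ) := by exact_mod_cast (by omega : 1 ≤ L + 1)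
      have ht2 : 2 ≤ t := by linarith
      by_contra hc
      push Not at hc
      have : ((M : ℝ) + 1) * ((L + 1 : ℕ) : ℝ) ≤ (t ^ 3 + 1) * (t / 2) :=
        mul_le_mul (by linarith) (by linarith) (by linarith) (by positivity)
      nlinarith [pow_pos htpos 3, sq_nonneg (t - 2), mul_le_mul_of_nonneg_left ht2 (sq_nonneg t)]
    have hone : ∀ a b : ℤ, ∀ side, law G {ω | ∀ k < M,
        ω ∉ good (gline n a b) (blk K γ n side k) L w α β} ≤
          ENNReal.ofReal (exp (-(t ^ 2 / 2))) := fun a b side => by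
      have hρe : ∀ k < M, ENNReal.ofReal ρ ≤
          law G (good (gline n a b) (blk K γ n side k) L w α β) := fun k _ => by
        refine le_trans (le_of_eq ?_) (law_good_ge G hwL hL hq)
        rw [hρdef, ENNReal.ofReal_mul (by norm_num), ENNReal.ofReal_pow hp'.le, hpdef,
          ENNReal.ofReal_toReal (measure_ne_top _ _), ENNReal.ofReal_div_of_pos two_pos,
          ENNReal.ofReal_one, ENNReal.ofReal_ofNat]
      refine (law_forall_not_le G
        (fun k => support (gline n a b) (blk K γ n side k) L w) _ M ?_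
        (fun k _ => measurableSet_good _ _ _ _ _ _) (fun k _ => determined_good _ _ _ _ _ _)
        hρe).trans ?_
      · intro i _ j _ hij
        have key : ∀ i j : ℕ, i < j → Disjoint (support (gline n a b) (blk K γ n side i) L w)
            (support (gline n a b) (blk K γ n side j) L w) := fun i j hlt => by
          refine support_disjoint ?_
          simp only [blk, ← hLdef, ← hwdef]
          have hh : ((i : ℤ) + 1) ≤ j := by exact_mod_cast hlt
          push_cast
          nlinarith
        rcases hij.lt_or_gt with h | h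
        exacts [key i j h, (key j i h).symm]
      · rw [← ENNReal.ofReal_one, ← ENNReal.ofReal_sub _ (by linarith [inv_pos.2 htpos]),
          ← ENNReal.ofReal_pow (by linarith)]
        refine ENNReal.ofReal_le_ofReal ?_
        calc (1 - ρ) ^ M ≤ exp (-ρ) ^ M :=
              pow_le_pow_left₀ (by linarith) (one_sub_le_exp_neg ρ) M
          _ = exp (-(M * ρ)) := by rw [← exp_nat_mul]; ring_nf
          _ ≤ exp (-(t ^ 2 / 2)) := by
              rw [exp_le_exp, neg_le_neg_iff]
              calc t ^ 2 / 2 = t ^ 3 * (t⁻¹ / 2) := by field_simp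
                _ ≤ M * ρ := mul_le_mul hM hρ1 (by positivity) (by positivity)
    calc law G (F n) ≤ ∑ _a ∈ Finset.Icc (-(n : ℤ)) n, ∑ _b ∈ Finset.Icc (-(n : ℤ)) n,
          ∑ _side : Bool, ENNReal.ofReal (exp (-(t ^ 2 / 2))) := by
          refine (measure_biUnion_finset_le _ _).trans (Finset.sum_le_sum fun a _ => ?_)
          refine (measure_biUnion_finset_le _ _).trans (Finset.sum_le_sum fun b _ => ?_)
          exact (measure_iUnion_fintype_le _ _).trans (Finset.sum_le_sum fun side _ => hone a b side)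
      _ = ((2 * n + 1) * ((2 * n + 1) * 2) : ℕ) * ENNReal.ofReal (exp (-(t ^ 2 / 2))) := by
          simp only [Finset.sum_const, Finset.card_univ, Fintype.card_bool, Int.card_Icc,
            nsmul_eq_mul]
          rw [show ((n : ℤ) + 1 - -(n : ℤ)).toNat = 2 * n + 1 by omega]
          ring_nf
          push_cast
          ring
      _ ≤ ENNReal.ofReal (1 / (n : ℝ) ^ 2) := by
          rw [← ENNReal.ofReal_natCast, ← ENNReal.ofReal_mul (by positivity)]
          refine ENNReal.ofReal_le_ofReal ?_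
          rw [le_div_iff₀ (by positivity)]
          push_cast
          calc (2 * (n : ℝ) + 1) * ((2 * n + 1) * 2) * exp (-(t ^ 2 / 2)) * n ^ 2
              ≤ 18 * (n : ℝ) ^ 2 * exp (-(t ^ 2 / 2)) * n ^ 2 := by
                refine mul_le_mul_of_nonneg_right
                  (mul_le_mul_of_nonneg_right ?_ (exp_pos _).le) (sq_nonneg _)
                nlinarith
            _ = 18 * t ^ 16 * exp (-(t ^ 2 / 2)) := by rw [← htn]; ring
            _ ≤ 1 := he
  obtain ⟨N, hN⟩ := eventually_atTop.1 hF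
  have hfin : ∑' m : ℕ, law G (F (m + N)) ≠ ∞ := by
    refine ne_top_of_le_ne_top ?_ (ENNReal.tsum_le_tsum fun m => hN (m + N) (by omega))
    exact (ENNReal.ofReal_tsum_of_nonneg (fun m => by positivity)
      ((summable_nat_add_iff N).2 (Real.summable_one_div_nat_pow.2 one_lt_two))) ▸
        ENNReal.ofReal_ne_top
  filter_upwards [ae_eventually_notMem hfin] with ω hω
  obtain ⟨N', hN'⟩ := eventually_atTop.1 hω
  refine eventually_atTop.2 ⟨N' + N, fun n hn a b ha hb side => ?_⟩
  have h := hN' (n - N) (by omega)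
  rw [Nat.sub_add_cancel (by omega)] at h
  by_contra hcon
  push Not at hcon
  rw [abs_le] at ha hb
  exact h (Set.mem_biUnion (Finset.mem_Icc.2 ha)
    (Set.mem_biUnion (Finset.mem_Icc.2 hb) (Set.mem_iUnion.2 ⟨side, hcon⟩)))

end Vale.Agent.P158.Tube
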